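import Vale.Agent.P011UG.Ort

/-!
The cell of a Coxeter element.
-/

set_option autoImplicit false
set_option linter.all false

namespace Vale.Agent.P011UTR

open Matrix Subgroup Vale.Agent.P183CH Vale.Agent.P183CH.RG Vale.Agent.P011U Vale.Agent.P011UG

variable {R : RS} {K G : Type} [Field K] [Group G] {Γ : RG R K G} {w w₀ : R.Aut}
  {g h b n₀ t u v : G} {i : Fin R.r} {l : List (Fin R.r)} {J : Set (Fin R.r)}
  {a a' c : Fin R.r → Kˣ}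

/-- products of the cells of simple reflections -/
def CL (Γ : RG R K G) : List (Fin R.r) → G → Prop
  | [], g => g ∈ Γ.Bo
  | i :: l, g => ∃ b ∈ Γ.Bo, ∃ h, CL Γ l h ∧ g = b * Γ.n i * h

theorem CL.left (hb : b ∈ Γ.Bo) : ∀ {l : List (Fin R.r)}, CL Γ l g → CL Γ l (b * g)
  | [], e => mul_mem hb e
  | _ :: _, ⟨p, hp, h, e, e'⟩ => ⟨_, mul_mem hb hp, h, e, by rw [e']; group⟩

theorem CL.right (hb : b ∈ Γ.Bo) : ∀ {l : List (Fin R.r)} {g : G}, CL Γ l g → CL Γ l (g * b)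
  | [], _, e => mul_mem e hb
  | _ :: _, _, ⟨p, hp, h, e, e'⟩ => ⟨p, hp, _, CL.right hb e, by rw [e']; group⟩

theorem CL.nd : ∀ l : List (Fin R.r), CL Γ l (Γ.nd l)
  | [] => one_mem _
  | i :: l => ⟨1, one_mem _, _, CL.nd l, by rw [nd_cons, one_mul]⟩

/-- products of negative simple root elements -/
def Z (Γ : RG R K G) (l : List (Fin R.r)) (a : Fin R.r → Kˣ) : G :=
  (l.map fun j => Γ.x (-R.α j) (a j)).prod

theorem Z_cons : Z Γ (i :: l) a = Γ.x (-R.α i) (a i) * Z Γ l a := by simp [Z]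

theorem std_Z {ψ : G →* G} (h : Std Γ ψ (RingHom.id K) 1 c 1) :
    ψ (Z Γ l a) = Z Γ l (c⁻¹ * a) := by
  rw [Z, Z, map_list_prod, List.map_map]
  exact congrArg _ (List.map_congr_left fun j _ => by simpa using std_f h j (a j))

theorem cell_rep (h : Γ.Rep n₀ w) : Cell Γ w n₀ := ⟨1, one_mem _, _, h, 1, one_mem _, by group⟩

variable (hR : R.Ok)
include hR

theorem sE_not (hi : i ∉ J) : R.sE i ∉ R.WJ J := fun e => by
  have := hR.sub_In e (R.α i) i hi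
  simp [hR.sE_α, RS.α_self] at this

theorem wd_map {π : Equiv.Perm (Fin R.r)} (hπ : Dg R π) :
    ∀ l : List (Fin R.r), pq π * R.wd l * (pq π)⁻¹ = R.wd (l.map π)
  | [] => by simp [RS.wd_nil]
  | i :: l => by
    rw [List.map_cons, RS.wd_cons, RS.wd_cons, ← wd_map hπ l, ← pq_sE hR hπ]
    group

theorem exists_cox (ho : Ort R) : ∃ l : List (Fin R.r), l.Nodup ∧ (∀ i, i ∈ l) ∧
    ∀ π, Dg R π → pq π * R.wd l * (pq π)⁻¹ = R.wd l := by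
  classical
  have iv : ∀ π, Dg R π → Dg R π⁻¹ := fun π h i j => by simpa using (h (π⁻¹ i) (π⁻¹ j)).symm
  have ml : ∀ π π', Dg R π → Dg R π' → Dg R (π * π') := fun π π' h h' i j => (h _ _).trans (h' i j)
  have key : ∀ S : Finset (Fin R.r), (∀ π, Dg R π → ∀ i ∈ S, π i ∈ S) → ∃ l : List (Fin R.r),
      l.Nodup ∧ (∀ i, i ∈ l ↔ i ∈ S) ∧ ∀ π, Dg R π → R.wd (l.map π) = R.wd l := fun S => by
    induction S using Finset.strongInduction with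
    | H S ih =>
    intro hS
    rcases S.eq_empty_or_nonempty with rfl | ⟨i, hi⟩
    · exact ⟨[], by simp, by simp, fun _ _ => rfl⟩
    let O : Finset (Fin R.r) := Finset.univ.filter fun j => ∃ π, Dg R π ∧ j = π i
    have m : ∀ j, j ∈ O ↔ ∃ π, Dg R π ∧ j = π i := fun j => by simp [O]
    have st : ∀ π, Dg R π → ∀ j ∈ O, π j ∈ O := fun π h j e => by
      obtain ⟨π', h', rfl⟩ := (m j).1 e
      exact (m _).2 ⟨_, ml _ _ h h', rfl⟩
    obtain ⟨l, h1, h2, h3⟩ := ih (S \ O)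
      (Finset.sdiff_ssubset (fun j e => by
        obtain ⟨π, h, rfl⟩ := (m j).1 e
        exact hS π h i hi) ⟨i, (m i).2 ⟨1, fun _ _ => rfl, rfl⟩⟩)
      fun π h j e => by
        rw [Finset.mem_sdiff] at e ⊢
        exact ⟨hS π h j e.1, fun c => e.2 (by simpa using st _ (iv π h) _ c)⟩
    refine ⟨O.toList ++ l, O.nodup_toList.append h1 fun j p q =>
      (Finset.mem_sdiff.1 ((h2 j).1 q)).2 (Finset.mem_toList.1 p), fun j => ?_, fun π h => ?_⟩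
    · rw [List.mem_append, h2, Finset.mem_toList, Finset.mem_sdiff]
      refine ⟨fun e => e.elim (fun e => ?_) And.left, fun e => (em _).imp_right fun c => ⟨e, c⟩⟩
      obtain ⟨π, h, rfl⟩ := (m j).1 e
      exact hS π h i hi
    rw [List.map_append, RS.wd_append, RS.wd_append, h3 π h]
    refine congrArg (· * _) (List.Perm.prod_eq' (List.Perm.map _ ?_) ?_).symm
    · refine (List.perm_ext_iff_of_nodup O.nodup_toList (O.nodup_toList.map π.injective)).2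
        fun j => ?_
      simp only [List.mem_map, Finset.mem_toList]
      refine ⟨fun e => ⟨_, st _ (iv π h) _ e, by simp⟩, ?_⟩
      rintro ⟨j, e, rfl⟩
      exact st π h j e
    · rw [List.pairwise_map]
      refine O.nodup_toList.imp_of_mem fun {j j'} p q ne => ?_
      obtain ⟨π, h, rfl⟩ := (m j).1 (Finset.mem_toList.1 p)
      obtain ⟨π', h', rfl⟩ := (m j').1 (Finset.mem_toList.1 q)
      have e : (π' * π⁻¹) (π i) = π' i := by simp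
      have o := ho _ (π i) (ml _ _ h' (iv π h)) (e ▸ ne.symm)
      rw [e] at o
      exact (hR.conj_sE (RS.sE_mem_W (π' i)) (by
        rw [hR.sE_eq, RS.pr_α, o, zero_smul, sub_zero])).symm
  obtain ⟨l, h1, h2, h3⟩ := key Finset.univ fun _ _ _ _ => Finset.mem_univ _
  exact ⟨l, h1, fun i => (h2 i).2 (Finset.mem_univ _), fun π h => (wd_map hR h l).trans (h3 π h)⟩

variable (hΓ : Γ.Ok)
include hΓ

theorem cl_of (e : Cell Γ (R.wd l) g) : CL Γ l g := by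
  obtain ⟨p, hp, n, hn, q, hq, rfl⟩ := e
  have := ((CL.nd (Γ := Γ) l).left (mul_mem hp (T_le_Bo (hΓ.rep_div hR hn (rep_nd l)).1))).right hq
  rwa [mul_assoc p, inv_mul_cancel_right] at this

theorem step (hg : Cell Γ w g) (hb : b ∈ Γ.Bo) (i : Fin R.r) :
    Cell Γ (w * R.sE i) (g * b * Γ.n i) ∨ (Cell Γ w (g * b * Γ.n i) ∧ w (R.α i) ≤ 0) := by
  have xB : Γ.x (R.α i) 1 ∈ Γ.Bo := U_le_Bo (x_mem (hR.simple i) (RS.α_nonneg i) 1)
  rcases hR.sign' hg.mem_W (hR.simple i) with e | e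
  · have := ((hg.mul (one_mem _) (mul_mem hb xB)).up hR hΓ e (neg_ne_zero.2 one_ne_zero)).mul
      (one_mem _) xB
    exact .inl (by simpa only [RG.n, one_mul, mul_assoc] using this)
  obtain ⟨p, hp, n, hn, q, hq, rfl⟩ := hg
  obtain ⟨x, hx, y, hy, e' | e'⟩ := hΓ.cell_Bo hR hn i (mul_mem hq hb)
  · exact .inl ⟨_, mul_mem hp hx, _, hn.mul (rep_n i), y, hy, by
      rw [mul_assoc p x, mul_assoc p (x * _), ← e']; group⟩
  · exact .inr ⟨⟨_, mul_mem hp hx, _, hn, y, hy, by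
      rw [mul_assoc p x, mul_assoc p (x * _), ← e']; group⟩, e⟩

theorem weak : ∀ {l : List (Fin R.r)} {w : R.Aut} {g h : G}, Cell Γ w g → CL Γ l h →
    ∃ x ∈ R.WJ {i | i ∈ l}, Cell Γ (w * x) (g * h)
  | [], w, g, h, hg, e => ⟨1, one_mem _, by simpa using hg.mul (one_mem _) e⟩
  | i :: l, w, g, _, hg, ⟨b, hb, h, e, rfl⟩ => by
    have m : R.WJ {j | j ∈ l} ≤ R.WJ {j | j ∈ i :: l} :=
      closure_mono (Set.image_mono fun _ e => List.mem_cons_of_mem _ e)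
    rcases step hR hΓ hg hb i with e' | ⟨e', -⟩
    · obtain ⟨x, hx, k⟩ := weak e' e
      exact ⟨_, mul_mem (RS.sE_mem List.mem_cons_self) (m hx), by simpa only [mul_assoc] using k⟩
    · obtain ⟨x, hx, k⟩ := weak e' e
      exact ⟨_, m hx, by simpa only [mul_assoc] using k⟩

theorem fold (hi : i ∉ l) (hg : Cell Γ w g) (hb : b ∈ Γ.Bo) (hh : CL Γ l h)
    (e : Cell Γ w (g * (b * Γ.n i * h))) : Cell Γ w (g * b * Γ.n i) ∧ w (R.α i) ≤ 0 :=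
  (step hR hΓ hg hb i).resolve_left fun c => by
    obtain ⟨x, hx, k⟩ := weak hR hΓ c hh
    have := e.uniq hR hΓ (by simpa only [mul_assoc] using k)
    rw [left_eq_mul, mul_eq_one_iff_eq_inv] at this
    exact sE_not hR hi (this ▸ inv_mem hx)

theorem fold_neg : ∀ {l : List (Fin R.r)} {g h : G}, l.Nodup → Cell Γ w g → CL Γ l h →
    Cell Γ w (g * h) → ∀ i ∈ l, w (R.α i) ≤ 0
  | [], _, _, _, _, _, _ => by simp
  | i :: l, g, _, hl, hg, ⟨b, hb, h, hh, rfl⟩, e => by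
    obtain ⟨h1, h2⟩ := List.nodup_cons.1 hl
    obtain ⟨h3, h4⟩ := fold hR hΓ h1 hg hb hh e
    exact List.forall_mem_cons.2 ⟨h4, fold_neg h2 h3 hh (by simpa only [mul_assoc] using e)⟩

theorem ups : ∀ {l : List (Fin R.r)} {J : Set (Fin R.r)} {w : R.Aut} {g : G}, l.Nodup →
    (∀ j ∈ l, j ∉ J) → w ∈ R.WJ J → Cell Γ w g → Cell Γ (w * R.wd l) (g * Z Γ l a)
  | [], _, _, _, _, _, _, e => by simpa [Z, RS.wd_nil] using e
  | i :: l, J, w, g, hl, hJ, hw, e => by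
    obtain ⟨h1, h2⟩ := List.nodup_cons.1 hl
    rw [RS.wd_cons, Z_cons, ← mul_assoc, ← mul_assoc]
    refine ups (J := insert i J) h2 (fun j hj c => c.elim (fun c => h1 (c ▸ hj))
      (hJ j (List.mem_cons_of_mem _ hj))) (mul_mem
        (closure_mono (Set.image_mono (Set.subset_insert _ _)) hw) (RS.sE_mem (Set.mem_insert _ _)))
      (e.up hR hΓ (hR.pos_of_not_In hw (hR.α_pos i) fun c =>
        hJ i List.mem_cons_self (RS.mem_of_In c)).2 (a i).ne_zero)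

theorem Z_mem : Z Γ l a ∈ Γ.VJ {i | i ∈ l} := list_prod_mem fun x hx => by
  obtain ⟨j, hj, rfl⟩ := List.mem_map.1 hx
  exact x_mem (hR.neg_mem (hR.simple j))
    (And.intro (neg_nonpos.2 (RS.α_nonneg j)) (RS.In_α (J := {i | i ∈ l}) hj).neg) _

theorem Z_inj : ∀ {l : List (Fin R.r)}, l.Nodup → Z Γ l a = Z Γ l a' → ∀ i ∈ l, a i = a' i
  | [], _, _ => by simp
  | i :: l, hl, e => by
    obtain ⟨h1, h2⟩ := List.nodup_cons.1 hl
    have m := hR.neg_mem (hR.simple i)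
    rw [Z_cons, Z_cons] at e
    have k : a i = a' i := by
      by_contra c
      have h3 := (cell_rep (rep_T (one_mem Γ.T))).up hR hΓ (RS.α_nonneg i)
        (t := -(a' i : K) + a i) fun e' => c (Units.ext (neg_add_eq_zero.1 e').symm)
      rw [one_mul, one_mul, hΓ.add _ m, hΓ.x_neg m, eq_mul_inv_of_mul_eq e, mul_assoc,
        inv_mul_cancel_left] at h3
      obtain ⟨p, hp, n, x, hx, hn, q, hq, e'⟩ := hΓ.bruhatJ hR (VJ_le_GJ _
        (mul_mem (Z_mem hR hΓ (l := l) (a := a')) (inv_mem (Z_mem hR hΓ (l := l) (a := a)))))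
      exact sE_not hR h1 (h3.uniq hR hΓ ⟨p, U_le_Bo (UJ_le _ hp), n, hn, q,
        U_le_Bo (X_le_U (RS.cl_Inv _).1 hq), e'⟩ ▸ hx)
    rw [k] at e
    exact List.forall_mem_cons.2 ⟨k, Z_inj h2 (mul_left_cancel e)⟩

theorem rk1 (hb : b ∈ Γ.Bo) (i : Fin R.r) : ∃ b' ∈ Γ.Bo,
    b * Γ.n i = (Γ.n i)⁻¹ * b' ∨ ∃ s : Kˣ, b * Γ.n i = Γ.x (-R.α i) s * b' := by
  obtain ⟨u, hu, t, ht, rfl⟩ := hΓ.mem_Bo.1 hb
  obtain ⟨x, hx, y, hy, rfl⟩ := hΓ.split_UJ' hR (J := Set.univ) (RS.sE_mem_W i)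
    (UJ_univ (Γ := Γ) ▸ hu)
  obtain ⟨s, rfl⟩ := hΓ.mem_X_single (hR.simple i) (fun γ e => by
    rw [← hR.Inv_sE]; exact e.2) hx
  have m := mul_mem (mul_mem (U_le_Bo (hΓ.conj_U hR (rep_n i) (X_mono (fun _ e _ => e.2) hy)))
    (T_le_Bo (hΓ.nm_N_T hR _ (n_mem i) t ht))) (T_le_Bo (hΓ.n_sq hR i ▸ h_mem i (-1)))
  by_cases e : s = 0
  · exact ⟨_, m, .inl (by rw [e, hΓ.x_zero (hR.simple i)]; group)⟩
  lift s to Kˣ using IsUnit.mk0 s e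
  have k := hΓ.sl i (-s)
  rw [Units.val_neg, inv_neg, Units.val_neg, neg_neg, hΓ.x_neg (hR.simple i)] at k
  refine ⟨_, mul_mem (mul_mem (inv_mem (U_le_Bo (x_mem (hR.simple i) (RS.α_nonneg i) (s : K))))
    (T_le_Bo (mul_mem (inv_mem (hΓ.n_sq hR i ▸ h_mem i (-1)))
      (hΓ.nm_N_T hR _ (n_mem i) _ (inv_mem (h_mem i (-s))))))) m, .inr ⟨s⁻¹, ?_⟩⟩
  rw [eq_mul_of_inv_mul_eq (eq_mul_of_mul_inv_eq k)]
  group

omit hR in
theorem V_Bo (hv : v ∈ Γ.V) (hb : v ∈ Γ.Bo) : v = 1 := by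
  obtain ⟨u, hu, t, ht, rfl⟩ := hΓ.mem_Bo.1 hb
  obtain ⟨rfl, rfl⟩ := hΓ.tri u hu t ht hv
  exact one_mul 1

section

variable (h₀ : Γ.Rep n₀ w₀) (hw : R.Lg Set.univ w₀)
include h₀ hw

theorem V_iff : v ∈ Γ.V ↔ n₀ * v * n₀⁻¹ ∈ Γ.U := by
  rw [← VJ_univ, ← UJ_univ, hΓ.Lg_conj' hR h₀ hw]

theorem eq_Z : ∀ {l : List (Fin R.r)} {v : G}, l.Nodup → CL Γ l v → v ∈ Γ.V → ∃ a, v = Z Γ l a
  | [], _, _, e, hv => ⟨1, V_Bo hΓ hv e⟩
  | i :: l, _, hl, ⟨b, hb, h, hh, rfl⟩, hv => by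
    classical
    obtain ⟨h1, h2⟩ := List.nodup_cons.1 hl
    have h3 := (fold hR hΓ h1 (cell_rep h₀) hb hh (by
      simpa using (cell_rep h₀).mul (U_le_Bo ((V_iff hR hΓ h₀ hw).1 hv)) (one_mem _))).1
    obtain ⟨b', hb', e | ⟨s, e⟩⟩ := rk1 hR hΓ hb i
    · have := h3.uniq hR hΓ ⟨1, one_mem _, _, h₀.mul (rep_n i).inv, b', hb', by
        rw [mul_assoc, e]; group⟩
      rw [left_eq_mul, inv_eq_one] at this
      exact absurd (this ▸ one_mem _) (sE_not hR (i := i) (J := ∅) id)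
    rw [e, mul_assoc] at hv ⊢
    obtain ⟨a, k⟩ := eq_Z h2 (hh.left hb') ((mul_mem_cancel_left (x_mem (S := {γ | γ ≤ 0})
      (hR.neg_mem (hR.simple i)) (neg_nonpos.2 (RS.α_nonneg i)) _)).1 hv)
    refine ⟨Function.update a i s, ?_⟩
    rw [Z_cons, Function.update_self, k]
    exact congrArg (_ * List.prod ·) (List.map_congr_left fun j hj => by
      rw [Function.update_of_ne fun c : j = i => h1 (c ▸ hj)])

end

/-! Regular elements of the torus. -/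

section

variable (ht : t ∈ Γ.T) (hr : ∀ γ ∈ R.Φ, hΓ.chi γ t ≠ 1)
include ht hr

theorem cent_U (hu : u ∈ Γ.U) (e : t * u * t⁻¹ = u) : u = 1 := by
  obtain ⟨l, h1, h2⟩ := RS.exists_list (R := R) le_rfl
  obtain ⟨c, rfl⟩ := hΓ.exists_P hR RS.cl_Pos h1 h2 (U_eq (Γ := Γ) ▸ hu)
  have m : ∀ γ ∈ l, γ ∈ R.Φ := fun γ e => ((h2 γ).1 e).1
  have k : t * Γ.P l c * t⁻¹ = Γ.P l fun γ => hΓ.chi γ t * c γ := by
    rw [← MulAut.conj_apply, RG.P, map_list_prod, List.map_map]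
    exact congrArg _ (List.map_congr_left fun γ e => hΓ.tx ht (m γ e) _)
  exact hΓ.P_zero m fun γ q => (mul_left_eq_self₀.1 (hΓ.P_inj hR h1 (fun γ => (h2 γ).1)
    (k.symm.trans e) γ q)).resolve_left fun c => hr γ (m γ q) (Units.ext c)

theorem surj_U (hu : u ∈ Γ.U) : ∃ y ∈ Γ.U, y⁻¹ * t * y * t⁻¹ = u := by
  have g3 : ∀ h, Γ.X (RS.Ge R.Pos h) ≤ Γ.X R.Pos := fun h => X_mono fun _ e _ => e.1
  have key : ∀ h : ℕ, ∃ y ∈ Γ.X R.Pos, y * u * (t * y * t⁻¹)⁻¹ ∈ Γ.X (RS.Ge R.Pos h) := by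
    intro h
    induction h with
    | zero =>
      exact ⟨1, one_mem _, by
        simpa using X_mono (S' := RS.Ge R.Pos 0) (fun γ e _ => ⟨e, (hR.ht_pos e).le⟩) (U_eq (Γ := Γ) ▸ hu)⟩
    | succ h ih =>
      obtain ⟨y, hy, e⟩ := ih
      obtain ⟨Q, _, π, h1, h2, -, h3, -⟩ := hΓ.level hR RS.cl_Pos h
      have nT := fun y hy => g3 h (hΓ.nm_T_X (RS.Ge R.Pos h) t ht y hy)
      obtain ⟨z, hz, e'⟩ := hΓ.X_ind (P := fun f => ∃ z ∈ Γ.X (RS.Ge R.Pos h),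
        π z * π f = π (t * z * t⁻¹)) ⟨1, one_mem _, by simpa using (h2 1 (one_mem _)).2 (one_mem _)⟩
        (fun γ p q s => ⟨_, x_mem q p (s / (hΓ.chi γ t - 1)), by
          have : (hΓ.chi γ t : K) - 1 ≠ 0 := sub_ne_zero.2 fun c => hr γ q (Units.ext c)
          rw [hΓ.tx ht q, ← h1 _ (x_mem q p.1 _) _ (x_mem q p.1 _), ← hΓ.add γ q]
          congr 2
          field_simp
          ring⟩)
        (fun f hf f' hf' ⟨z, hz, p⟩ ⟨z', hz', p'⟩ => ⟨_, mul_mem hz hz', by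
          rw [h1 _ (g3 h hz) _ (g3 h hz'), h1 _ (g3 h hf) _ (g3 h hf'), mul_assoc,
            ← mul_assoc (π z'), h3 _ (g3 h hz') _ hf, mul_assoc, ← mul_assoc, p, p',
            ← h1 _ (nT _ hz) _ (nT _ hz')]
          exact congrArg π (by group)⟩) e
      have m := mul_mem (g3 h hz) (g3 h e)
      refine ⟨_, mul_mem (g3 h hz) hy, ?_⟩
      rw [show z * y * u * (t * (z * y) * t⁻¹)⁻¹ = z * (y * u * (t * y * t⁻¹)⁻¹) * (t * z * t⁻¹)⁻¹ by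
        group, ← h2 _ (mul_mem m (inv_mem (nT _ hz))), h1 _ m _ (inv_mem (nT _ hz)),
        h1 _ (g3 h hz) _ (g3 h e), e', ← h1 _ (nT _ hz) _ (inv_mem (nT _ hz)), mul_inv_cancel]
      exact (h2 1 (one_mem _)).2 (one_mem _)
  obtain ⟨m, hm⟩ := R.exists_Ge
  obtain ⟨y, hy, e⟩ := key m
  exact ⟨y, U_eq (Γ := Γ) ▸ hy, by
    rw [eq_inv_mul_of_mul_eq (mul_inv_eq_one.1 (hΓ.eq_one_of_Ge hm e))]; group⟩

omit ht in
theorem reg_conj (h₀ : Γ.Rep n₀ w) (ht : t ∈ Γ.T) : ∀ γ ∈ R.Φ, hΓ.chi γ (n₀ * t * n₀⁻¹) ≠ 1 :=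
  fun γ e => by
    rw [← RS.app_inv w γ, hΓ.chi_rep hR h₀ _ ht]
    exact hr _ (hR.map_mem (inv_mem h₀.mem_W) e)

theorem cent_V (hv : v ∈ Γ.V) (e : t * v * t⁻¹ = v) : v = 1 := by
  obtain ⟨w₀, hw⟩ := hR.exists_Lg Set.univ
  obtain ⟨n₀, -, h₀⟩ := exists_rep' (Γ := Γ) hw.1
  exact conj_eq_one_iff.1 (cent_U hR hΓ (hΓ.nm_N_T hR _ h₀.mem_N t ht) (reg_conj hR hΓ hr h₀ ht)
    ((V_iff hR hΓ h₀ hw).1 hv) (by conv_rhs => rw [← e]
                                   group))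

theorem exists_pos (hl : l.Nodup) : ∃ g, Cell Γ (R.wd l) (g⁻¹ * t * g) := by
  obtain ⟨w₀, hw⟩ := hR.exists_Lg Set.univ
  obtain ⟨n₀, -, h₀⟩ := exists_rep' (Γ := Γ) hw.1
  obtain ⟨y, -, e⟩ := surj_U hR hΓ (hΓ.nm_N_T hR _ h₀.mem_N t ht) (reg_conj hR hΓ hr h₀ ht)
    ((V_iff hR hΓ h₀ hw).1 (VJ_le _ (Z_mem hR hΓ (l := l) (a := 1))))
  have := (ups hR hΓ (a := 1) (J := ∅) hl (fun _ _ => id) (one_mem _)
    (cell_rep (rep_T (one_mem _)))).mul (one_mem _) (T_le_Bo ht)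
  refine ⟨n₀⁻¹ * y * n₀, ?_⟩
  rw [one_mul, one_mul, one_mul, show Z Γ l 1 = n₀⁻¹ * (n₀ * Z Γ l 1 * n₀⁻¹) * n₀ by group, ← e]
    at this
  exact (congrArg _ (by group)).mp this

variable (hl : l.Nodup) (hl' : ∀ i, i ∈ l)
include hl hl'

omit hr in
theorem pos_nf (e : Cell Γ (R.wd l) (g⁻¹ * t * g)) :
    ∃ v ∈ Γ.V, v⁻¹ * g ∈ Γ.Bo ∧ ∃ a, v⁻¹ * t * v * t⁻¹ = Z Γ l a := by
  obtain ⟨w₀, hw⟩ := hR.exists_Lg Set.univ
  obtain ⟨n₀, -, h₀⟩ := exists_rep' (Γ := Γ) hw.1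
  obtain ⟨w, k⟩ := exists_cell hR hΓ (n₀ * g)
  obtain rfl := hR.Lg_unique hw ⟨k.mem_W, fun i _ => fold_neg hR hΓ hl k (cl_of hR hΓ e)
    ((congrArg _ (by group)).mp
      (k.mul (T_le_Bo (hΓ.nm_N_T hR _ h₀.mem_N t ht)) (one_mem _))) i (hl' i)⟩
  obtain ⟨p, hp, n, hn, q, hq, k⟩ := k
  obtain ⟨u, hu, s, hs, rfl⟩ := hΓ.mem_Bo.1 hp
  have hv : n₀⁻¹ * u * n₀ ∈ Γ.V := (V_iff hR hΓ h₀ hw).2 (by simpa [mul_assoc] using hu)
  have hb : (n₀⁻¹ * u * n₀)⁻¹ * g ∈ Γ.Bo := by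
    rw [eq_inv_mul_of_mul_eq k]
    simpa [mul_assoc] using mul_mem (T_le_Bo (hΓ.rep_div hR h₀ (hn.T_mul hs)).2) hq
  refine ⟨_, hv, hb, eq_Z hR hΓ h₀ hw hl (cl_of hR hΓ ((congrArg _ (by group)).mp
    (e.mul hb (mul_mem (inv_mem hb) (inv_mem (T_le_Bo ht)))))) ?_⟩
  simpa only [mul_assoc] using mul_mem (inv_mem hv) (hΓ.nm_T_X _ t ht _ hv)

omit hR ht hr hl hl' in
theorem std_fix {ψ : G →* G} (h : Std Γ ψ (RingHom.id K) 1 c 1) (ht : t ∈ Γ.T) : ψ t = t :=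
  (closure_le (ψ.eqLocus (.id G))).2 (by
    rintro _ ⟨i, t, rfl⟩
    exact std_h hΓ h i t) ht

theorem pos_trans {g' : G} (e : Cell Γ (R.wd l) (g⁻¹ * t * g)) (e' : Cell Γ (R.wd l) (g'⁻¹ * t * g')) :
    ∃ c, ∀ ψ : G →* G, Std Γ ψ (RingHom.id K) 1 c 1 → (ψ g)⁻¹ * g' ∈ Γ.Bo := by
  obtain ⟨v, hv, hb, a, k⟩ := pos_nf hR hΓ ht hl hl' e
  obtain ⟨v', hv', hb', a', k'⟩ := pos_nf hR hΓ ht hl hl' e'
  refine ⟨a / a', fun ψ h => ?_⟩
  have h1 := congrArg ψ k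
  rw [std_Z h, inv_div, div_mul_cancel, ← k', map_mul, map_mul, map_mul, map_inv, map_inv,
    std_fix hΓ h ht] at h1
  obtain rfl := mul_inv_eq_one.1 (cent_V hR hΓ ht hr (mul_mem hv' (inv_mem (std_V hR hΓ h hv))) (by
    rw [show t * (v' * (ψ v)⁻¹) * t⁻¹ = v' * (v'⁻¹ * t * v' * t⁻¹) * t * (ψ v)⁻¹ * t⁻¹ by group, ← h1]
    group))
  simpa [mul_assoc] using mul_mem (inv_mem (std_Bo hR hΓ h hb)) hb'

omit hr in
theorem pos_free (e : Cell Γ (R.wd l) (g⁻¹ * t * g)) {ψ : G →* G} (h : Std Γ ψ (RingHom.id K) 1 c 1)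
    (e' : (ψ g)⁻¹ * g ∈ Γ.Bo) : c = 1 := by
  obtain ⟨v, hv, hb, a, k⟩ := pos_nf hR hΓ ht hl hl' e
  have h1 := inv_mul_eq_one.1 (V_Bo hΓ (mul_mem (inv_mem (std_V hR hΓ h hv)) hv) (by
    simpa [mul_assoc] using mul_mem (mul_mem (std_Bo hR hΓ h hb) e') (inv_mem hb)))
  have h2 := congrArg ψ k
  rw [std_Z h, map_mul, map_mul, map_mul, map_inv, map_inv, std_fix hΓ h ht, h1, k] at h2
  exact funext fun i => by simpa using Z_inj hR hΓ hl h2 i (hl' i)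

end

end Vale.Agent.P011UTR
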