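import Vale.Agent.P011UTR.IF
import Vale.Agent.P011UTR.Cox
import Vale.Agent.P011UBL.Main
import Vale.Agent.P011UB.Main
import Vale.Agent.P011UC.Tden
import Vale.Agent.P011UC.Main
import Vale.Agent.P011UD.Cls
import Vale.Agent.P011UI.Exa
import Vale.Agent.P011UP.Lev

/-!
The obstructions lie in the first cohomology of a maximal torus of the adjoint group.
-/

set_option autoImplicit false
set_option linter.all false

namespace Vale.Agent.P011UTR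

open Matrix Subgroup Pointwise Vale.Agent.P011L Vale.Agent.P183CH Vale.Agent.P183CH.RG
  Vale.Agent.P011U Vale.Agent.P011UHB Vale.Agent.P011LD
open Vale.Agent.P011UC (pa ch)
open Vale.Agent.P011UBL (ch_add ch_α)
open Vale.Agent.P011UG (pq Ort)

section

variable {R : RS} {K G : Type} [Field K] [Group G] {Γ : RG R K G} {w w' : R.Aut}
  {χ χ' d d' : R.Q → Kˣ} {g y y' : G} {c : Fin R.r → Kˣ} {π : Equiv.Perm (Fin R.r)}

theorem ml_eq (h : Ml χ) : ch (fun i => χ (R.α i)) = χ := funext fun γ => by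
  let f : R.Q →+ Additive Kˣ := .mk' (fun γ => .ofMul (χ γ)) fun γ δ => congrArg _ (h γ δ)
  conv_rhs => rw [RS.eq_sum γ]
  have h1 : ∀ i, χ (γ i • R.α i) = χ (R.α i) ^ γ i := fun i => map_zsmul f _ _
  have h2 : χ (∑ i, γ i • R.α i) = ∏ i, χ (γ i • R.α i) := map_sum f _ _
  simp only [h1, h2, ch]

theorem ml_ext (h : Ml χ) (h' : Ml χ') (e : ∀ i, χ (R.α i) = χ' (R.α i)) : χ = χ' := by
  rw [← ml_eq h, ← ml_eq h', funext e]

theorem ch_mul (c c' : Fin R.r → Kˣ) : ch (c * c') = ch c * ch c' := funext fun γ => by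
  simp [ch, mul_zpow, Finset.prod_mul_distrib]

theorem ch_one : ch (1 : Fin R.r → Kˣ) = 1 := funext fun γ => by simp [ch]

theorem ch_simple (c : Fin R.r → Kˣ) (i : Fin R.r) : ch c (R.α i) = c i := by
  simpa using ch_α c i 1

theorem ch_neg (c : Fin R.r → Kˣ) (i : Fin R.r) : ch c (-R.α i) = (c i)⁻¹ := by
  simpa using ch_α c i (-1)

theorem ml_ga {k : Type} [Field k] [Algebra k K] {ω : (K ≃ₐ[k] K) →* R.Aut} (h : Ml χ)
    (σ : K ≃ₐ[k] K) : Ml (ga ω σ χ) := fun γ δ => by simp [ga, h _ _]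

/-- `ψ` permutes the root subgroups -/
def Mv (Γ : RG R K G) (ψ : G → G) (σ : K → K) (w : R.Aut) (d : R.Q → Kˣ) : Prop :=
  ∀ γ ∈ R.Φ, w γ ∈ R.Φ ∧ ∀ u, ψ (Γ.x γ u) = Γ.x (w γ) (d γ * σ u)

variable (hR : R.Ok) (hΓ : Γ.Ok)
include hR hΓ

theorem Mv.uniq {ψ : G → G} {σ : K →+* K} (h : Mv Γ ψ σ w d) (h' : Mv Γ ψ σ w' d') :
    w = w' ∧ ∀ γ ∈ R.Φ, d γ = d' γ := by
  have k := fun γ e => ((h γ e).2 1).symm.trans ((h' γ e).2 1)
  simp only [map_one, mul_one] at k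
  obtain rfl : w = w' := RS.aut_ext fun i => hΓ.x_eq hR (h _ (hR.simple i)).1 (h' _ (hR.simple i)).1
    (Units.ne_zero _) (k _ (hR.simple i))
  exact ⟨rfl, fun γ e => Units.ext (hΓ.x_inj hR (h γ e).1 (k γ e))⟩

theorem hom_ext {ψ ψ' : G →* G} (h : ∀ γ ∈ R.Φ, ∀ u, ψ (Γ.x γ u) = ψ' (Γ.x γ u)) (g : G) :
    ψ g = ψ' g :=
  DFunLike.congr_fun (MonoidHom.eq_of_eqOn_dense hΓ.gen (by
    rintro _ ⟨i, u, rfl | rfl⟩
    exacts [h _ (hR.simple i) u, h _ (hR.neg_mem (hR.simple i)) u])) g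

theorem exists_mv {ψ : G →* G} {σ : K →+* K} (h : Std Γ ψ σ g c π) (hg : g ∈ Γ.N) {e : ℕ}
    (he : ∀ ε : ℤˣ, ((ε : ℤ) : K) ^ e = 1) : ∃ w d χ, Ext R w ∧ Ml χ ∧ Mv Γ ψ σ w d ∧
      ∀ γ ∈ R.Φ, d γ ^ e = χ γ ^ e := by
  obtain ⟨a, ha⟩ := exists_rep_N hg
  obtain ⟨χ, h1, h2⟩ := P011UBL.nmx R K G Γ hR hΓ ψ σ g c π a h ha
  choose! ε hε using h2
  refine ⟨_, fun γ => Units.map (Int.castRingHom K).toMonoidHom (ε γ) * χ γ, χ,
    ⟨a, ha.mem_W, π, h.1, rfl⟩, h1, fun γ e => ⟨hR.map_mem (w := a) ha.mem_W (P011UP.pm_mem hR h.1 γ e),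
      fun u => (hε γ e u).1⟩, fun γ _ => Units.ext ?_⟩
  simp [mul_pow, he]

theorem smul_Bo {φ : MulAut G} {σ : K ≃+* K} (h : Std Γ φ σ g c π) :
    φ • Γ.Bo = MulAut.conj g • Γ.Bo := by
  have h0 := P011UG.std0 h
  rw [← inv_smul_eq_iff, ← mul_smul]
  refine le_antisymm ?_ fun p hp => mem_pointwise_smul_iff_inv_smul_mem.2 ?_
  · rintro _ ⟨p, hp, rfl⟩
    exact P011UG.std_Bo hR hΓ (σ := σ.toRingHom) (ψ := MulEquiv.toMonoidHom _) h0 hp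
  · exact P011UG.std_Bo hR hΓ (σ := σ.symm.toRingHom) (ψ := (MulEquiv.symm _).toMonoidHom)
      (P011UG.std_symm h0) hp

theorem smul_ch {φ : MulAut G} {σ : K ≃+* K} (h : Std Γ φ σ g c π) (y : G) :
    φ • MulAut.conj y • Γ.Bo = MulAut.conj (φ y * g) • Γ.Bo := by
  rw [map_mul, mul_smul, ← smul_Bo hR hΓ h, ← mul_smul, ← mul_smul]
  exact congrArg (· • _) (MulEquiv.ext fun x => by simp)

theorem ch_eq : MulAut.conj y • Γ.Bo = MulAut.conj y' • Γ.Bo ↔ y⁻¹ * y' ∈ Γ.Bo := by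
  rw [eq_comm, ← inv_smul_eq_iff, ← mul_smul, ← map_inv, ← map_mul]
  exact ⟨fun e => P011UG.mem_Bo_of hR hΓ fun u hu => e.le (smul_mem_pointwise_smul _ _ _ (U_le_Bo hu)),
    conj_smul_eq_self_of_mem⟩

variable {k : Type} [Field k] [Algebra k K] (a : (K ≃ₐ[k] K) →* MulAut G)

theorem exists_act {g c π : (K ≃ₐ[k] K) → _} (h : ∀ σ, Std Γ (a σ) σ (g σ) (c σ) (π σ))
    (hg : ∀ σ, g σ ∈ Γ.N) {e : ℕ} (he : ∀ ε : ℤˣ, ((ε : ℤ) : K) ^ e = 1) :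
    ∃ (ω : (K ≃ₐ[k] K) →* R.Aut) (d η : (K ≃ₐ[k] K) → R.Q → Kˣ), (∀ σ, Ext R (ω σ)) ∧
      (∀ σ, Mv Γ (a σ) σ (ω σ) (d σ)) ∧ (∀ σ, Ml (η σ)) ∧ (∀ σ, ∀ γ ∈ R.Φ, η σ (ω σ γ) = d σ γ ^ e) ∧
      (∀ σ τ, η (σ * τ) = η σ * ga ω σ (η τ)) ∧ ∀ τ, Mv Γ (a τ) τ 1 1 → ω τ = 1 ∧ η τ = 1 := by
  choose w d χ hw hχ hm hd using fun σ : K ≃ₐ[k] K => exists_mv hR hΓ (σ := (σ : K →+* K))
    (ψ := (a σ).toMonoidHom) (h σ) (hg σ) he
  have h6 := fun σ τ : K ≃ₐ[k] K => (hm (σ * τ)).uniq hR hΓ (w' := w σ * w τ)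
    (d' := fun γ => d σ (w τ γ) * Units.map (σ : K →* K) (d τ γ)) fun γ e =>
      ⟨(hm σ _ (hm τ γ e).1).1, fun u => by
        have := (congrArg (a σ) ((hm τ γ e).2 u)).trans ((hm σ _ (hm τ γ e).1).2 _)
        simpa [mul_assoc] using this⟩
  let ω : (K ≃ₐ[k] K) →* R.Aut := .mk' w fun σ τ => (h6 σ τ).1
  have h8 : ∀ σ γ, γ ∈ R.Φ → (ω σ)⁻¹ γ ∈ R.Φ := fun σ γ p => map_inv ω σ ▸ (hm σ⁻¹ γ p).1
  have ml : ∀ σ, Ml fun γ => χ σ ((ω σ)⁻¹ γ) ^ e := fun σ γ δ => by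
    simp only [map_add, hχ σ _ _, mul_pow]
  refine ⟨ω, d, _, hw, hm, ml, fun σ γ p => by rw [RS.inv_app, hd σ γ p], fun σ τ =>
    ml_ext (ml _) (fun γ δ => ?_) fun i => ?_, fun τ q => ?_⟩
  · simp only [Pi.mul_apply, ml σ γ δ, ml_ga (ml τ) σ γ δ]
    ac_rfl
  · have a := h8 σ _ (hR.simple i)
    have b := h8 τ _ a
    simp only [Pi.mul_apply, ga, map_mul, _root_.mul_inv_rev, RS.mul_app]
    rw [← hd _ _ a, ← hd _ _ b, ← hd _ _ b, (h6 σ τ).2 _ b, mul_pow, map_pow,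
      show w τ ((ω τ)⁻¹ _) = _ from RS.app_inv _ _]
  · obtain ⟨q1, q2⟩ := (hm τ).uniq hR hΓ q
    refine ⟨q1, ml_ext (ml τ) (fun _ _ => (mul_one _).symm) fun i => ?_⟩
    rw [← hd _ _ (h8 τ _ (hR.simple i)), q2 _ (h8 τ _ (hR.simple i))]
    exact one_pow _

theorem exists_coc (ho : Ort R) {g c π : (K ≃ₐ[k] K) → _}
    (h : ∀ σ, Std Γ (a σ) σ (g σ) (c σ) (π σ)) {ω : (K ≃ₐ[k] K) →* R.Aut} {d : _ → _}
    (hm : ∀ σ, Mv Γ (a σ) σ (ω σ) (d σ)) (dg : (Fin R.r → Kˣ) →* MulAut G)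
    (hdg : ∀ c, ∀ γ ∈ R.Φ, ∀ u, dg c (Γ.x γ u) = Γ.x γ (ch c γ * u)) {t : G} (ht : t ∈ Γ.T)
    (hr : ∀ γ ∈ R.Φ, hΓ.chi γ t ≠ 1) (hf : ∀ σ, a σ t = t) :
    ∃ (y : G) (ξ : (K ≃ₐ[k] K) → R.Q → Kˣ), (∀ σ, Ml (ξ σ)) ∧
      (∀ σ τ, ξ (σ * τ) = ξ σ * ga ω σ (ξ τ)) ∧ (∀ τ, Mv Γ (a τ) τ 1 1 → a τ y = y → ξ τ = 1) ∧
      ∀ S, Cb ω ξ S → ∃ y, ∀ σ, Fx S σ → ∀ p ∈ Γ.Bo, y⁻¹ * a σ (y * p * y⁻¹) * y ∈ Γ.Bo := by
  have s1 : ∀ c, Std Γ (dg c) (RingEquiv.refl K) 1 c 1 := fun c => ⟨fun _ _ => rfl, fun i u => by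
    simp [hdg c _ (hR.simple i), hdg c _ (hR.neg_mem (hR.simple i)), ch_simple, ch_neg]⟩
  have cm : ∀ σ c c', ch c' = ga ω σ (ch c) → a σ * dg c = dg c' * a σ := fun σ c c' q =>
    MulEquiv.ext (hom_ext hR hΓ (ψ := (a σ * dg c).toMonoidHom) (ψ' := (dg c' * a σ).toMonoidHom)
      fun γ p u => by
        show a σ (dg c _) = dg c' (a σ _)
        rw [hdg c γ p, (hm σ γ p).2, (hm σ γ p).2, hdg c' _ (hm σ γ p).1, q, ga, RS.inv_app]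
        simp [mul_left_comm])
  obtain ⟨l, l1, l2, l3⟩ := exists_cox hR ho
  obtain ⟨y, hy⟩ := exists_pos hR hΓ ht hr l1
  choose x hx using fun σ : K ≃ₐ[k] K => pos_trans hR hΓ ht hr l1 l2 hy (g' := a σ y * g σ) (by
    have := P011UG.std_cell hR hΓ (σ := (σ : K →+* K)) (ψ := MulEquiv.toMonoidHom _)
      (P011UG.std0 (s := σ.toRingEquiv) (h σ)) hy
    rw [l3 _ (h σ).1] at this
    simpa [hf, mul_assoc] using this)
  replace hx : ∀ σ, dg (x σ) • MulAut.conj y • Γ.Bo = a σ • MulAut.conj y • Γ.Bo := fun σ => by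
    rw [smul_ch hR hΓ (s1 _), smul_ch hR hΓ (σ := σ.toRingEquiv) (h σ), ch_eq hR hΓ, mul_one]
    exact hx σ (dg _).toMonoidHom (s1 _)
  have fr : ∀ c c', dg c • MulAut.conj y • Γ.Bo = dg c' • MulAut.conj y • Γ.Bo → c = c' :=
    fun c c' q => by
      rw [← inv_smul_eq_iff, ← mul_smul, ← map_inv, ← map_mul, smul_ch hR hΓ (s1 _), ch_eq hR hΓ,
        mul_one] at q
      exact (inv_mul_eq_one.1 (pos_free hR hΓ ht l1 l2 hy (ψ := (dg _).toMonoidHom) (s1 _) q)).symm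
  refine ⟨y, fun σ => ch (x σ), fun σ => ch_add _, fun σ τ => ?_, fun τ q q' => ?_,
    fun S ⟨b, hb, q⟩ => ?_⟩
  · have e := ml_eq (ml_ga (ω := ω) (ch_add (x τ)) σ)
    show ch _ = ch _ * ga ω σ (ch _)
    rw [← e, ← ch_mul]
    refine congrArg ch (fr _ _ ?_)
    rw [hx, map_mul, mul_smul, ← hx τ, ← mul_smul, cm σ _ _ e, mul_smul, ← hx σ, ← mul_smul,
      ← map_mul, mul_comm]
  · show ch _ = 1
    rw [fr (x τ) 1 ?_, ch_one]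
    rw [hx, map_one, one_smul, smul_ch hR hΓ (σ := τ.toRingEquiv) (g := 1) (c := 1) (π := 1)
      ⟨fun _ _ => rfl, fun i u => by
        simp [(q _ (hR.simple i)).2, (q _ (hR.neg_mem (hR.simple i))).2]⟩, q', mul_one]
  · obtain ⟨b, rfl⟩ : ∃ b', ch b' = b := ⟨_, ml_eq hb⟩
    refine ⟨dg b⁻¹ y, fun σ s p hp => ?_⟩
    have e : a σ • dg b⁻¹ • MulAut.conj y • Γ.Bo = dg b⁻¹ • MulAut.conj y • Γ.Bo := by
      rw [← mul_smul, map_inv, ← (MulAction.injective (dg (x σ * b))).eq_iff, ← mul_smul,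
        ← mul_assoc, ← cm σ b _ ((ch_mul _ _).trans (q σ s)), mul_inv_cancel_right, map_mul, mul_smul,
        smul_inv_smul, hx]
    rw [smul_ch hR hΓ (s1 _), mul_one] at e
    have := mem_pointwise_smul_iff_inv_smul_mem.1 (e.le (smul_mem_pointwise_smul _ _ _
      (smul_mem_pointwise_smul _ _ _ hp)))
    rwa [MulAut.smul_def, MulAut.conj_inv_apply] at this

end

variable {k K : Type} [Field k] [Field K] [Algebra k K] {D : Chev}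

theorem exists_dgH : ∃ dg : (Fin D.R.r → Kˣ) →* MulAut (D.grp K),
    ∀ c, ∀ γ ∈ D.R.Φ, ∀ u, dg c ((GG D K).x γ u) = (GG D K).x γ (ch c γ * u) := by
  choose ψ _ _ h _ using fun c => P011UI.exists_dg (D := D) (K := K) c
  replace h := fun c γ e => h c γ (Chev.mem_Φ.1 e)
  refine ⟨.mk' ψ fun c c' => MulEquiv.ext (hom_ext (Chev.R_ok D) (GG_ok (k := K))
    (ψ := (ψ (c * c')).toMonoidHom) (ψ' := ((ψ c').trans (ψ c)).toMonoidHom) fun γ e u => ?_), h⟩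
  refine (h _ γ e u).trans (Eq.symm ((congrArg (ψ c) (h _ γ e u)).trans ((h _ γ e _).trans ?_)))
  simp [mul_zpow, Finset.prod_mul_distrib, mul_assoc]

theorem exists_reg [Infinite K] (hD : SC D) : ∃ f, (∃ t ∈ (GG D K).T, P011UC.ev t f ≠ 0) ∧
    ∀ t ∈ (GG D K).T, P011UC.ev t f ≠ 0 → ∀ γ ∈ D.R.Φ, GG_ok.chi γ t ≠ 1 := by
  have hR := Chev.R_ok D
  obtain ⟨c, hc⟩ := hD.coord
  have key : ∀ γ : D.R.Q, ∃ f, ∀ t ∈ (GG D K).T, P011UC.ev t f ≠ 0 ↔ GG_ok.chi γ t ≠ 1 := fun γ => by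
    let m : Fin D.n → ℤ := fun a => ∑ j, c j a * D.R.pr γ j
    refine ⟨∏ a, .X (a, a) ^ (m a).toNat - ∏ a, .X (a, a) ^ (-m a).toNat, fun t ht => ?_⟩
    obtain ⟨s, rfl⟩ := GG_ok.exists_hT ht
    have h1 : ∏ a, (∏ i, s i ^ D.μ i a) ^ (m a).toNat =
        GG_ok.chi γ (GG_ok.hT s) * ∏ a, (∏ i, s i ^ D.μ i a) ^ (-m a).toNat := by
      rw [GG_ok.chi_hT hR, ← Finset.prod_congr rfl fun j _ => congrArg (· ^ D.R.pr γ j) (hc s j)]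
      simp only [← Finset.prod_zpow _ _ (D.R.pr γ _), ← _root_.zpow_mul]
      rw [Finset.prod_comm, ← Finset.prod_mul_distrib]
      refine Finset.prod_congr rfl fun a _ => ?_
      rw [P011UP.prod_zpow, ← zpow_natCast, ← zpow_natCast, ← _root_.zpow_add]
      exact congrArg _ (eq_add_of_sub_eq (Int.toNat_sub_toNat_neg _))
    have h2 : ∀ a, ((GG_ok : (GG D K).Ok).hT s).1.1 a a = (∏ i, s i ^ D.μ i a : Kˣ) := fun a =>
      (congrFun₂ (hT_val s) a a).trans (diagonal_apply_eq _ a)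
    simp only [P011UC.ev, map_sub, map_prod, map_pow, MvPolynomial.eval_X, h2,
      ← Units.val_pow_eq_pow_val, ← Units.coe_prod, h1, sub_ne_zero, Ne, Units.val_inj, mul_eq_right]
  choose f hf using key
  have h2 : ∀ t ∈ (GG D K).T, P011UC.ev t (∏ γ ∈ D.R.Φ, f γ) ≠ 0 ↔ ∀ γ ∈ D.R.Φ, GG_ok.chi γ t ≠ 1 :=
    fun t ht => by simp only [← hf _ t ht, P011UC.ev, map_prod, Finset.prod_ne_zero_iff]
  obtain ⟨m, hm, -⟩ := P011UP.exists_dom hR ∅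
  obtain ⟨s, hs⟩ := P011UP.exists_gen (K := K) m
  refine ⟨_, ⟨_, P011UP.co_mem GG_ok (m := m) s, (h2 _ (P011UP.co_mem _ _)).2 fun γ e => ?_⟩,
    fun t ht => (h2 t ht).1⟩
  rw [GG_ok.chi_eq hR e (P011UP.co_mem _ _) ((P011UP.co_x _ e s 1).trans (by rw [mul_one]))]
  refine hs γ e fun z => (hR.sign γ e).1 (funext fun i => (hR.sign γ e).2.elim
    (fun p => hm.In p z.le i id) fun p => neg_eq_zero.1 (hm.In (neg_nonneg.2 p) ?_ i id))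
  rw [P011UP.pw_neg, z, neg_zero]

theorem trn : TRN := by
  intro k K _ _ _ _ _ D hD T hA
  classical
  have := Infinite.of_injective _ (algebraMap k K).injective
  have := IsSepClosure.sep_closed k (K := K)
  have hR := Chev.R_ok D
  have hΓ : (GG D K).Ok := GG_ok
  obtain ⟨g₀, c₀, π, h0, -⟩ := P011UC.nf_of P011UB.aut hD T
  obtain ⟨z, -, -, hv⟩ := P011UC.aptj0 D k K ⊤ T.a π Set.univ hΓ (P011UC.act_of T h0 ⊤).1
    (P011UC.act_of T h0 ⊤).2 (fun _ _ _ => Iff.rfl) (hΓ.GJ_univ hR ▸ (P011UC.act_of T h0 ⊤).1.std) hD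
    1 ⟨1, one_mem _, by simp⟩
  rw [← P011UC.cj_tw, NJ_univ] at hv
  have hE := P011UC.eqv_cj T z
  generalize P011UC.cj T z = T' at hv hE
  have h1 : ∀ σ : K ≃ₐ[k] K, ∃ g ∈ (GG D K).N, ∃ c, Std (GG D K) (T'.a σ) σ g c (π σ) := fun σ => by
    obtain ⟨g, hg, c, δ, h, e⟩ := hv σ trivial
    exact ⟨g, hg, c, h.sym, fun i u => by rw [e]; exact
      ⟨congrArg (g * · * g⁻¹) (h.pos i u), congrArg (g * · * g⁻¹) (h.neg i u)⟩⟩
  choose g hg c h1 using h1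
  obtain ⟨f, h2, h3⟩ := exists_reg (K := K) hD
  obtain ⟨t, ht, h4, h5⟩ := P011UC.tden D k K ⊤ T'.a π hΓ (P011UC.act_of T' h1 ⊤).1 hv f h2
  let e : ℕ := if (2 : K) = 0 then 1 else 2
  obtain ⟨ω, d, η, hw, hm, e1, e2, e3, e4⟩ := exists_act hR hΓ T'.a h1 hg (e := e) fun ε => by
    rcases Int.units_eq_one_or ε with rfl | rfl
    · simp
    by_cases c : (2 : K) = 0
    · simpa [e, c, neg_eq_iff_add_eq_zero, one_add_one_eq_two] using c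
    · simp [e, c]
  obtain ⟨dg, hdg⟩ := exists_dgH (D := D) (K := K)
  obtain ⟨y, ξ, x1, x2, x3, x4⟩ := exists_coc hR hΓ T'.a (P011UG.ort cls hR hA) h1 hm dg hdg ht
    (h3 t ht h5) fun σ => mem_iInf.1 (mem_iInf.1 h4 σ) trivial
  have h7 : Op ⊤ fun τ => Mv (GG D K) (T'.a τ) τ 1 1 :=
    (P011UC.near_op (P011UC.near_fE T') ⊤).imp fun τ _ e γ p => ⟨p, fun u => by
      simpa [e] using P011UC.fE_x τ γ u⟩
  refine ⟨T', ω, ξ, η, e, hE, hw, ⟨x1, x2, P011UC.op_near ((h7.and (P011UP.tw_sm T' y)).imp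
    fun τ _ q => ⟨(e4 τ q.1).1, x3 τ q.1 q.2⟩)⟩, ⟨e1, e3, P011UC.op_near (h7.imp fun τ _ => e4 τ)⟩, x4,
    (em _).imp (fun c => if_pos c) fun c => ⟨if_neg c, c⟩, fun p N j S hp p0 hq ⟨b, hb, q⟩ => ?_⟩
  obtain ⟨b, rfl⟩ : ∃ b', ch b' = b := ⟨_, ml_eq hb⟩
  have := Fact.mk hp
  have := (CharP.charP_iff_prime_eq_zero hp).2 p0
  let Φ : D.grp K →* D.grp K := (dg b).toMonoidHom.comp (fm D (iterateFrobenius K p N))
  have a : ∀ γ ∈ D.R.Φ, ∀ u, Φ ((GG D K).x γ u) = (GG D K).x γ (ch b γ * u ^ p ^ N) :=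
    fun γ s u => (congrArg (dg b) (fm_x _ γ u)).trans (hdg b γ s _)
  refine ⟨Φ, 1, b, ⟨fun _ _ => rfl, fun i u => ?_⟩, fun σ s => hom_ext hR hΓ
    (ψ := Φ.comp (T'.a σ).toMonoidHom) (ψ' := (T'.a σ).toMonoidHom.comp Φ) fun γ r u => ?_⟩
  · simp [a _ (hR.simple i), a _ (hR.neg_mem (hR.simple i)), ch_simple, ch_neg]
  · have q' := congrArg Units.val (congrFun (q σ s) (ω σ γ))
    rw [ga, RS.inv_app, Pi.mul_apply] at q'
    simp only [Pi.pow_apply, e2 σ γ r] at q'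
    show Φ (T'.a σ _) = T'.a σ (Φ _)
    rw [(hm σ γ r).2, a _ (hm σ γ r).1, a γ r, (hm σ γ r).2, map_mul, map_pow, mul_pow, hq]
    congr 1
    simp only [Units.val_mul, Units.val_pow_eq_pow_val, Units.coe_map, MonoidHom.coe_coe] at q'
    rw [← q']
    ring

end Vale.Agent.P011UTR
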