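import Vale.Agent.P011UHB.Spec

/-!
The statement `TRS` outside of type `A`.
-/

set_option autoImplicit false
set_option linter.all false

namespace Vale.Agent.P011UTR

open Vale.Agent.P011L Vale.Agent.P183CH Vale.Agent.P011U Vale.Agent.P011UHB

/-- TRN: the obstructions are classes in the first cohomology of a torus. -/
def TRN : Prop := AllI fun k K _ _ _ D T => ¬TyA D.R → ∃ (T' : Tw k (D.grp K))
  (ω : (K ≃ₐ[k] K) →* D.R.Aut) (ξ η : (K ≃ₐ[k] K) → D.R.Q → Kˣ) (e : ℕ), Eqv T T' ∧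
    (∀ σ, Ext D.R (ω σ)) ∧ Co ω ξ ∧ Co ω η ∧ (∀ S, Cb ω ξ S → QS T' S) ∧
    (e = 1 ∨ (e = 2 ∧ (2 : K) ≠ 0)) ∧ ∀ (p N j : ℕ) S, p.Prime → (p : K) = 0 → p ^ N = e * j + 1 →
      Cb ω (fun σ => η σ ^ j) S → PerQ T' S (p ^ N)

end Vale.Agent.P011UTR
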